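import Vale.Agent.P216.Ch2.Ns2
import Vale.Agent.P216.H133C.Frames
import Vale.Agent.P216.Ch2.C313.Relh
import Vale.Agent.P216.Ch2.H550.Hp
import Vale.Agent.P216.Ch2.H901.Susp

/-!
# P216-C, block [THOM] : extension of classes over a handle
-/

set_option linter.all false

open Set

namespace Vale.Agent.P216.Ch2.H133C

open Vale.Agent.P216 Vale.Agent.P216.Ch2
open Vale.Agent.P216.H133C

open Vale.Agent.P216.AS Vale.Agent.P216.Ch2.AS Vale.Agent.P216.H901 Vale.Agent.P216.Ch2.H901 Vale.Agent.P216.H83 Vale.Agent.P216.Ch2.H83 Vale.Agent.P216.C313 Vale.Agent.P216.Ch2.C313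

section Gen

variable {E : Type} [MetricSpace E] {k : Type} [Field k]

/-- All classes of a pair vanish in degree `q`. -/
def NoH (k : Type) [Field k] {E : Type} [MetricSpace E] (X A : Set E) (q : ℕ) : Prop :=
  ∀ z : Hr (tr E) (on k) X A q, z = 0

/-- **Extension.** A class of `(L, A ∩ L)` extends to `(X, A)` if `H^(q+1) (X, A ∪ L) = 0`. -/
theorem ext_step (h2 : Ok k) {X A L N₀ : Set E} (cA : IsCompact A) (cL : IsCompact L)
    (hA : A ⊆ X) (hL : L ⊆ X) (hN : N₀ = A ∩ L) (hN1 : N₀ ⊆ A) (q : ℕ)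
    (h0 : NoH k X (A ∪ L) (q + 1)) (y : Hr (tr E) (on k) L N₀ q) :
    ∃ x : Hr (tr E) (on k) X A q, resR hL hN1 q x = y := by
  obtain ⟨y1, hy1⟩ := (strong_excision (k := k) (χ := on k) (tw_tr h2 _) cA cL (inv_tr _)
    (inv_tr _) rfl hN subset_union_right hN1 q).2 y
  have hTS : Zr (tr E) (on k) X X ≤ Zr (tr E) (on k) X (A ∪ L) :=
    Zr_anti le_rfl (union_subset hA hL)
  have hSR : Zr (tr E) (on k) X (A ∪ L) ≤ Zr (tr E) (on k) X A := Zr_anti le_rfl subset_union_left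
  let y2 : H (Zr (tr E) (on k) X A) (Zr (tr E) (on k) X (A ∪ L)) q :=
    Hinc (zr_le (A ∪ L) X A) (zr_le (A ∪ L) X (A ∪ L)) q y1
  obtain ⟨x, hx⟩ := (exact_del (n := q) hTS hSR y2).1 (h0 _)
  refine ⟨x, ?_⟩
  have e1 : resR hL hN1 q x = Hinc (Zr_anti hL hN1)
      (zr_le' X L (subset_union_right : L ⊆ A ∪ L)) q
      (Hinc (le_refl (Zr (tr E) (on k) X A)) hTS q x) := by
    obtain ⟨c, hc, rfl⟩ := H.exists_mk x
    rfl
  rw [e1, hx, ← hy1]
  obtain ⟨c, hc, rfl⟩ := H.exists_mk y1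
  rfl

/-- Vanishing by strong excision. -/
theorem noH_exc (h2 : Ok k) {X A D N₀ : Set E} (cA : IsCompact A) (cD : IsCompact D)
    (hX : X = A ∪ D) (hN : N₀ = A ∩ D) (q : ℕ) (h0 : NoH k D N₀ q) : NoH k X A q := by
  intro z
  have hD : D ⊆ X := hX ▸ subset_union_right
  have hN1 : N₀ ⊆ A := hN ▸ inter_subset_left
  have h := (strong_excision (k := k) (χ := on k) (tw_tr h2 _) cA cD (inv_tr _)
    (inv_tr _) hX hN hD hN1 q).1
  apply h
  rw [show resR hD hN1 q z = 0 from h0 _, map_zero]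

end Gen

section Two

variable {E E' : Type} [MetricSpace E] [MetricSpace E'] {k : Type} [Field k]

/-- Vanishing is inherited by homotopy retracts. -/
theorem noH_of_hp {X A : Set E} {Y B : Set E'} {f : E → E'} {g : E' → E}
    (hf : IsMap (tr E) (tr E') X Y f) (hfA : MapsTo f A B) (hg : IsMap (tr E') (tr E) Y X g)
    (hgB : MapsTo g B A) (hA : A ⊆ X) (hB : B ⊆ Y) (h : Hp X A X A id (g ∘ f)) (q : ℕ)
    (h0 : NoH k Y B q) : NoH k X A q := by
  intro z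
  obtain ⟨D, hD, hDA, h0', h1'⟩ := h
  have e1 := pullR_homotopy (χ := on k) hD hA hDA q
  have e2 : pullR (on k) hD.zero hA (hDA 0 ⟨le_rfl, zero_le_one⟩) q z = z := by
    rw [pullR_eq_resR (χ := on k) subset_rfl subset_rfl hA hD.zero _ fun x hx => h0' hx]
    exact Hinc_refl _ _ z
  have e3 : pullR (on k) hD.one hA (hDA 1 ⟨zero_le_one, le_rfl⟩) q z =
      pullR (on k) (hg.comp hf) hA (hgB.comp hfA) q z := by
    rw [pullR_congr (χ := on k) hD.one (hg.comp hf) hA _ (hgB.comp hfA) fun x hx => h1' hx]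
  rw [← e2, ← e1, e3, pullR_comp hg hf hA hB hfA hgB,
    show pullR (on k) hg hB hgB q z = 0 from h0 _, map_zero]

/-- Transport of vanishing along mutually inverse maps (one direction). -/
theorem noH_of_inv {X A : Set E} {Y B : Set E'} {f : E → E'} {g : E' → E}
    (hf : IsMap (tr E) (tr E') X Y f) (hfA : MapsTo f A B) (hg : IsMap (tr E') (tr E) Y X g)
    (hgB : MapsTo g B A) (hA : A ⊆ X) (hB : B ⊆ Y) (h : ∀ x ∈ X, g (f x) = x) (q : ℕ)
    (h0 : NoH k Y B q) : NoH k X A q := by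
  intro z
  have e2 : pullR (on k) (hg.comp hf) hA (hgB.comp hfA) q z = z := by
    rw [pullR_eq_resR (χ := on k) subset_rfl subset_rfl hA (hg.comp hf) _ h]
    exact Hinc_refl _ _ z
  rw [← e2, pullR_comp hg hf hA hB hfA hgB,
    show pullR (on k) hg hB hgB q z = 0 from h0 _, map_zero]

end Two

section Cube

variable {E : Type} [MetricSpace E] {k : Type} [Field k]

/-- `Z × I^n` -/
def cbE (n : ℕ) (Z : Set E) : Set (E × (Fin n → ℝ)) := {p | p.1 ∈ Z ∧ ∀ i, p.2 i ∈ Icc (0 : ℝ) 1}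

/-- `Z × ∂I^n ∪ A × I^n` -/
def bdE (n : ℕ) (Z A : Set E) : Set (E × (Fin n → ℝ)) :=
  {p | p ∈ cbE n Z ∧ (p.1 ∈ A ∨ ∃ i, p.2 i = 0 ∨ p.2 i = 1)}

theorem cbE_eq (n : ℕ) (Z : Set E) :
    cbE n Z = Z ×ˢ (Set.pi univ fun _ : Fin n => Icc (0 : ℝ) 1) := by
  ext p
  simp only [cbE, mem_prod, mem_pi, mem_univ, true_imp_iff]
  rfl

theorem isCompact_cbE {n : ℕ} {Z : Set E} (hZ : IsCompact Z) : IsCompact (cbE n Z) := by
  rw [cbE_eq]
  exact hZ.prod (isCompact_univ_pi fun _ => isCompact_Icc)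

theorem bdE_sub {n : ℕ} {Z A : Set E} : bdE n Z A ⊆ cbE n Z := fun _ h => h.1

/-- adding a last coordinate -/
def snF {n : ℕ} (p : (E × (Fin n → ℝ)) × ℝ) : E × (Fin (n + 1) → ℝ) :=
  (p.1.1, Fin.snoc (α := fun _ => ℝ) p.1.2 p.2)

theorem snF_last {n : ℕ} (p : (E × (Fin n → ℝ)) × ℝ) : (snF p).2 (Fin.last n) = p.2 :=
  Fin.snoc_last (α := fun _ => ℝ) _ _

theorem snF_cast {n : ℕ} (p : (E × (Fin n → ℝ)) × ℝ) (i : Fin n) :
    (snF p).2 i.castSucc = p.1.2 i := Fin.snoc_castSucc (α := fun _ => ℝ) _ _ _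

theorem continuous_snF {n : ℕ} : Continuous (snF (E := E) (n := n)) := by
  refine Continuous.prodMk (by fun_prop) (continuous_pi fun i => ?_)
  refine Fin.lastCases ?_ (fun i => ?_) i
  · simp only [Fin.snoc_last]
    fun_prop
  · simp only [Fin.snoc_castSucc]
    fun_prop

theorem noH_cube (h2 : Ok k) {Z A : Set E} (hZ : IsCompact Z) (hA : A ⊆ Z) : ∀ (n q : ℕ),
    (∀ p, p + n = q → NoH k Z A p) → NoH k (cbE n Z) (bdE n Z A) q
  | 0, q, h => by
    have hf : IsMap (tr _) (tr _) (cbE 0 Z) Z (Prod.fst : E × (Fin 0 → ℝ) → E) :=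
      isMap_of (isCompact_cbE hZ) continuous_fst.continuousOn fun p hp => hp.1
    have hg : IsMap (tr _) (tr _) Z (cbE 0 Z) (fun e : E => (e, (fun i => i.elim0 : Fin 0 → ℝ))) :=
      isMap_of hZ (by fun_prop) fun e he => ⟨he, fun i => i.elim0⟩
    refine noH_of_inv hf ?_ hg ?_ bdE_sub hA ?_ q (h q rfl)
    · rintro p ⟨-, h | ⟨i, -⟩⟩
      · exact h
      · exact i.elim0
    · exact fun e he => ⟨⟨hA he, fun i => i.elim0⟩, Or.inl he⟩
    · rintro ⟨e, y⟩ _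
      exact Prod.ext rfl (funext fun i => i.elim0)
  | n + 1, q, h => by
    have hc : IsCompact (cyl (cbE n Z)) := (isCompact_cbE hZ).prod isCompact_Icc
    have hf : IsMap (tr _) (tr _) (cbE (n + 1) Z) (cyl (cbE n Z))
        (fun p : E × (Fin (n + 1) → ℝ) => ((p.1, fun i : Fin n => p.2 i.castSucc), p.2 (Fin.last n))) :=
      isMap_of (isCompact_cbE hZ) (by fun_prop) fun p hp =>
        ⟨⟨hp.1, fun i => hp.2 _⟩, hp.2 _⟩
    have hg : IsMap (tr _) (tr _) (cyl (cbE n Z)) (cbE (n + 1) Z)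
        snF := by
      refine isMap_of hc continuous_snF.continuousOn fun p hp => ⟨hp.1.1, fun i => ?_⟩
      refine Fin.lastCases ?_ (fun i => ?_) i
      · rw [snF_last]
        exact hp.2
      · rw [snF_cast]
        exact hp.1.2 i
    have hsub : bcyl (cbE n Z) (bdE n Z A) ⊆ cyl (cbE n Z) := bcyl_subset bdE_sub
    refine noH_of_inv hf ?_ hg ?_ bdE_sub hsub ?_ q ?_
    · rintro p ⟨hp, h' | ⟨i, hi⟩⟩
      · exact Or.inr ⟨⟨⟨hp.1, fun i => hp.2 _⟩, Or.inl h'⟩, hp.2 _⟩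
      · revert hi
        refine Fin.lastCases (fun hi => ?_) (fun i hi => ?_) i
        · exact Or.inl ⟨⟨hp.1, fun i => hp.2 _⟩, hi⟩
        · exact Or.inr ⟨⟨⟨hp.1, fun i => hp.2 _⟩, Or.inr ⟨i, hi⟩⟩, hp.2 _⟩
    · rintro p (⟨h1, h3⟩ | ⟨⟨h1, h3⟩, h4⟩)
      · refine ⟨⟨h1.1, fun i => ?_⟩, Or.inr ⟨Fin.last n, ?_⟩⟩
        · refine Fin.lastCases ?_ (fun i => ?_) i
          · rw [snF_last]
            rcases h3 with h | h
            · rw [h]; exact ⟨le_rfl, zero_le_one⟩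
            · rw [show p.2 = 1 from h]; exact ⟨zero_le_one, le_rfl⟩
          · rw [snF_cast]
            exact h1.2 i
        · rw [snF_last]
          exact h3
      · refine ⟨⟨h1.1, fun i => ?_⟩, ?_⟩
        · refine Fin.lastCases ?_ (fun i => ?_) i
          · rw [snF_last]
            exact h4
          · rw [snF_cast]
            exact h1.2 i
        · rcases h3 with h3 | ⟨i, hi⟩
          · exact Or.inl h3
          · refine Or.inr ⟨i.castSucc, ?_⟩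
            rw [snF_cast]
            exact hi
    · rintro ⟨e, y⟩ _
      refine Prod.ext rfl ?_
      funext i
      refine Fin.lastCases ?_ (fun i => ?_) i
      · exact Fin.snoc_last (α := fun _ => ℝ) _ _
      · exact Fin.snoc_castSucc (α := fun _ => ℝ) _ _ _
    · cases q with
      | zero => exact fun z => cyl_zero h2 z
      | succ q =>
        intro z
        apply (sus_bijective h2 (bdE_sub (n := n) (Z := Z) (A := A)) q).1
        rw [map_zero]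
        exact noH_cube h2 hZ hA n q (fun p hp => h p (by omega)) _

end Cube

section Prod

variable {E M : Type} [MetricSpace E] [MetricSpace M] {k : Type} [Field k]

/-- **Product with a handle.** -/
theorem noH_prod (h2 : Ok k) {Z A : Set E} (hZ : IsCompact Z) (hA : A ⊆ Z) {n : ℕ}
    {D S : Set M} (C : Cell M n D S) (hD : IsCompact D) (hS : S ⊆ D) (q : ℕ)
    (h : ∀ p, p + n = q → NoH k Z A p) :
    NoH k (Z ×ˢ D) {p | p ∈ Z ×ˢ D ∧ (p.1 ∈ A ∨ p.2 ∈ S)} q := by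
  have hf : IsMap (tr _) (tr _) (Z ×ˢ D) (cbE n Z) (fun p : E × M => (p.1, C.φ p.2)) := by
    refine isMap_of (hZ.prod hD) ?_ fun p hp => ⟨hp.1, fun i => C.φ_mem _ hp.2 i⟩
    exact continuousOn_fst.prodMk (C.φ_cont.comp continuousOn_snd fun p hp => hp.2)
  have hg : IsMap (tr _) (tr _) (cbE n Z) (Z ×ˢ D) (fun p : E × (Fin n → ℝ) => (p.1, C.ψ p.2)) := by
    refine isMap_of (isCompact_cbE hZ) ?_ fun p hp => ⟨hp.1, C.ψ_mem _ hp.2⟩
    exact continuousOn_fst.prodMk (C.ψ_cont.comp continuousOn_snd fun p hp => hp.2)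
  refine noH_of_hp hf ?_ hg ?_ (fun p hp => hp.1) bdE_sub ?_ q (noH_cube h2 hZ hA n q h)
  · rintro p ⟨hp, h' | h'⟩
    · exact ⟨⟨hp.1, fun i => C.φ_mem _ hp.2 i⟩, Or.inl h'⟩
    · exact ⟨⟨hp.1, fun i => C.φ_mem _ hp.2 i⟩, Or.inr (C.φ_bd _ h')⟩
  · rintro p ⟨hp, h' | h'⟩
    · exact ⟨⟨hp.1, C.ψ_mem _ hp.2⟩, Or.inl h'⟩
    · exact ⟨⟨hp.1, C.ψ_mem _ hp.2⟩, Or.inr (C.ψ_bd _ hp.2 h')⟩
  · refine ⟨fun s p => (p.1, C.K (p.2, s)), ?_, ?_, ?_, ?_⟩
    · refine IsHtpy.of_continuousOn (hZ.prod hD) ?_ (fun s hs p hp => ⟨hp.1, C.K_mem _ hp.2 s hs⟩)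
        fun _ _ i => i.elim
      refine ContinuousOn.prodMk (by fun_prop) (C.K_cont.comp (by fun_prop) fun q hq => ?_)
      exact ⟨hq.2.2, hq.1⟩
    · rintro s hs p ⟨hp, h' | h'⟩
      · exact ⟨⟨hp.1, C.K_mem _ hp.2 s hs⟩, Or.inl h'⟩
      · exact ⟨⟨hp.1, C.K_mem _ hp.2 s hs⟩, Or.inr (C.K_bd _ h' s hs)⟩
    · intro p hp
      change (p.1, C.K (p.2, 0)) = p
      rw [C.K_zero _ hp.2]
    · intro p hp
      change (p.1, C.K (p.2, 1)) = (p.1, C.ψ (C.φ p.2))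
      rw [C.K_one _ hp.2]

end Prod

end Vale.Agent.P216.Ch2.H133C
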